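import Vale.Agent.P014U.Gn
import Vale.Agent.P004S.Gal1
import Vale.Agent.P004S.Bas2

/-! # P014U: the words of `P004S` at the odd prime (helper7) -/

set_option linter.all false

noncomputable section

namespace Vale.Agent.P014U.X4S

open NumberField Matrix Filter Topology
open Vale.Agent.P022 (Qb GQ IsConj Irred UnrAt IsFrob)
open Vale.Agent.P027M.S (Inert)
open Vale.Agent.P022D.W (dec)
open Vale.Agent.P022E.GW (Ov Fb)

export Vale.Agent.P004S (wp UnS ov_dvd norm_add_le' norm_sub_le' idx_ne lc_of_open)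

variable [Pp]

abbrev V : Type := Fin 2 → ℚ_[pp]

abbrev Rp : Type := GQ →* GL (Fin 2) ℚ_[pp]

/-- the matrix of `r g` -/
def mt (r : Rp) (g : GQ) : Matrix (Fin 2) (Fin 2) ℚ_[pp] := r g

/-- the determinant -/
def ep (r : Rp) (g : GQ) : ℚ_[pp] := (mt r g).det

/-- the hypotheses on the representation -/
structure Rep (r : Rp) (S : Finset ℕ) : Prop where
  cont : ∀ i j, Continuous fun g => mt r g i j
  int : ∀ g i j, ‖mt r g i j‖ ≤ 1
  two : pp ∈ S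
  unr : ∀ l : ℕ, l.Prime → l ∉ S → UnrAt r l
  frob : ∀ l : ℕ, l.Prime → l ∉ S → ∀ g, IsFrob l g → ep r g = l ∧
    (mt r g).trace ≠ l + 1 ∧ (mt r g).trace ≠ -(l + 1)
  irr : Irred r

/-- a choice of a place, a Frobenius element and a tame generator for each prime -/
structure Pl where
  P : ℕ → Ideal (𝓞 Qb)
  σ : ℕ → GQ
  τ : ℕ → GQ
  ov : ∀ l : ℕ, l.Prime → Ov l (P l)
  fb : ∀ l : ℕ, l.Prime → Fb l (P l) (σ l)
  gn : ∀ l : ℕ, l.Prime → l ≠ pp → Gn l (P l) (τ l)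

/-- the determinant is the cyclotomic character -/
def Cyc (r : Rp) : Prop := ∀ (g : GQ) (n a : ℕ) (z : Qb), z ^ pp ^ n = 1 →
  ‖ep r g - a‖ ≤ (1 / pp : ℝ) ^ n → g z = z ^ a

/-- `r g ≡ 1` modulo `pp ^ n` -/
def Tr (r : Rp) (n : ℕ) (g : GQ) : Prop := ∀ i j, ‖(mt r g - 1) i j‖ ≤ (1 / pp : ℝ) ^ n

theorem pl_ex : Nonempty Pl := by
  have : ∀ p : ℕ, ∃ (P : Ideal (𝓞 Qb)) (σ τ : GQ), p.Prime → Ov p P ∧ Fb p P σ ∧ (p ≠ pp → Gn p P τ) :=
    fun p => by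
      by_cases hp : p.Prime
      · obtain ⟨P, h⟩ := P022.H916.exists_prime hp
        obtain ⟨F, e⟩ := P022D.W.exists_phi hp h.1 h.2
        by_cases k : p = pp
        · exact ⟨P, F, 1, fun _ => ⟨⟨hp, h⟩, e, fun a => absurd k a⟩⟩
        · obtain ⟨τ, k⟩ := ex_gn (l := p) (P := P) ⟨hp, h⟩ k
          exact ⟨P, F, τ, fun _ => ⟨⟨hp, h⟩, e, fun _ => k⟩⟩
      · exact ⟨⊥, 1, 1, fun e => absurd e hp⟩
  choose P σ τ h using this
  exact ⟨⟨P, σ, τ, fun l hl => (h l hl).1, fun l hl => (h l hl).2.1, fun l hl => (h l hl).2.2⟩⟩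

theorem ip_pos : (0 : ℝ) < 1 / pp := one_div_pos.2 (Nat.cast_pos.2 pp_pos)

theorem ip_lt : (1 / pp : ℝ) < 1 := (div_lt_one (Nat.cast_pos.2 pp_pos)).2 (Nat.one_lt_cast.2 one_lt)

theorem ip_pow (n : ℕ) : (1 / pp : ℝ) ^ n = (pp : ℝ) ^ (-n : ℤ) := by
  rw [_root_.zpow_neg, _root_.zpow_natCast, one_div, inv_pow]

theorem norm_pp : ‖(pp : ℚ_[pp])‖ = 1 / pp := by rw [Padic.norm_p, one_div]

theorem norm_pp_pow (k : ℕ) : ‖(pp : ℚ_[pp]) ^ k‖ = (1 / pp) ^ k := by rw [norm_pow, norm_pp]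

theorem lt_one_iff {x : ℚ_[pp]} : ‖x‖ < 1 ↔ ‖x‖ ≤ 1 / pp := by
  have := Padic.norm_le_pow_iff_norm_lt_pow_add_one x (-1)
  simpa using this.symm

variable {r : Rp} {S : Finset ℕ}

theorem mt_mul (r : Rp) (g h : GQ) : mt r (g * h) = mt r g * mt r h := by
  simp only [mt, map_mul, Units.val_mul]

theorem mt_one (r : Rp) : mt r 1 = 1 := by simp only [mt, map_one, Units.val_one]

theorem ep_mul (r : Rp) (g h : GQ) : ep r (g * h) = ep r g * ep r h := by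
  simp only [ep, mt_mul, det_mul]

theorem ep_one (r : Rp) : ep r 1 = 1 := by simp only [ep, mt_one, det_one]

theorem norm_mulVec_le {M : Matrix (Fin 2) (Fin 2) ℚ_[pp]} {c : ℝ} (hM : ∀ i j, ‖M i j‖ ≤ c)
    (v : V) : ‖M *ᵥ v‖ ≤ c * ‖v‖ := by
  have hc : 0 ≤ c := (norm_nonneg _).trans (hM 0 0)
  refine (pi_norm_le_iff_of_nonneg (by positivity)).2 fun i => ?_
  rw [mulVec, dotProduct, Fin.sum_univ_two]
  refine norm_add_le' ?_ ?_ <;> rw [norm_mul] <;>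
    exact mul_le_mul (hM _ _) (norm_le_pi_norm v _) (norm_nonneg _) hc

theorem Rep.norm_mt (h : Rep r S) (g : GQ) (v : V) : ‖mt r g *ᵥ v‖ ≤ ‖v‖ := by
  simpa using norm_mulVec_le (h.int g) v

theorem Rep.mt_cont (h : Rep r S) : Continuous (mt r) :=
  continuous_pi fun i => continuous_pi fun j => h.cont i j

theorem Rep.ep_cont (h : Rep r S) : Continuous (ep r) := h.mt_cont.matrix_det

theorem Rep.mt_inert (h : Rep r S) {l : ℕ} {P : Ideal (𝓞 Qb)} (ho : Ov l P) (hl : l ∉ S) {g : GQ}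
    (hg : Inert P g) : mt r g = 1 := by
  rw [mt, h.unr l ho.1 hl P ho.2.1 ho.2.2 g hg, Units.val_one]

theorem Rep.ne_two (h : Rep r S) {l : ℕ} (hl : l ∉ S) : l ≠ pp := fun k => hl (k ▸ h.two)

theorem Rep.mono (h : Rep r S) {S' : Finset ℕ} (hS : S ⊆ S') : Rep r S' :=
  ⟨h.cont, h.int, hS h.two, fun l hl k => h.unr l hl fun j => k (hS j),
    fun l hl k => h.frob l hl fun j => k (hS j), h.irr⟩

theorem norm_co {v : V} {c : ℝ} (h : ‖v‖ ≤ c) (i : Fin 2) : ‖v i‖ ≤ c :=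
  (norm_le_pi_norm v i).trans h

theorem Rep.norm_ep (h : Rep r S) (g : GQ) : ‖ep r g‖ = 1 := by
  have k : ∀ g, ‖ep r g‖ ≤ 1 := fun g => by
    rw [ep, det_fin_two]
    refine norm_sub_le' ?_ ?_ <;> rw [norm_mul] <;>
      exact mul_le_one₀ (h.int _ _ _) (norm_nonneg _) (h.int _ _ _)
  have e : ‖ep r g‖ * ‖ep r g⁻¹‖ = 1 := by rw [← norm_mul, ← ep_mul, mul_inv_cancel, ep_one, norm_one]
  nlinarith [k g, k g⁻¹, norm_nonneg (ep r g), norm_nonneg (ep r g⁻¹)]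

theorem Tr.norm {n : ℕ} {g : GQ} (h : Tr r n g) (v : V) :
    ‖mt r g *ᵥ v - v‖ ≤ (1 / pp : ℝ) ^ n * ‖v‖ := by
  have := norm_mulVec_le h v
  rwa [sub_mulVec, one_mulVec] at this

theorem tr_iff {n : ℕ} {g : GQ} :
    Tr r n g ↔ ∀ v : V, ‖mt r g *ᵥ v - v‖ ≤ (1 / pp : ℝ) ^ n * ‖v‖ := by
  refine ⟨Tr.norm, fun h i j => ?_⟩
  have k := norm_co (h (Pi.single j 1)) i
  rw [Pi.norm_single, norm_one, mul_one] at k
  simpa [Matrix.sub_apply, one_apply, Pi.single_apply] using k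

theorem Tr.mono {n k : ℕ} {g : GQ} (h : Tr r n g) (hk : k ≤ n) : Tr r k g := fun i j =>
  (h i j).trans (pow_le_pow_of_le_one ip_pos.le ip_lt.le hk)

theorem tr_of_eq {n : ℕ} {g : GQ} (h : mt r g = 1) : Tr r n g := fun i j => by
  rw [h, sub_self]; simp

theorem Rep.tr_mul (h : Rep r S) {n : ℕ} {g k : GQ} (hg : Tr r n g) (hk : Tr r n k) :
    Tr r n (g * k) := tr_iff.2 fun v => by
  rw [mt_mul, ← mulVec_mulVec, show mt r g *ᵥ mt r k *ᵥ v - v =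
    mt r g *ᵥ (mt r k *ᵥ v - v) + (mt r g *ᵥ v - v) by rw [mulVec_sub]; abel]
  exact norm_add_le' ((h.norm_mt _ _).trans (hk.norm v)) (hg.norm v)

theorem Rep.tr_conj (h : Rep r S) {n : ℕ} {k : GQ} (hk : Tr r n k) (g : GQ) :
    Tr r n (g * k * g⁻¹) := tr_iff.2 fun v => by
  have e : mt r g *ᵥ mt r g⁻¹ *ᵥ v = v := by
    rw [mulVec_mulVec, ← mt_mul, mul_inv_cancel, mt_one, one_mulVec]
  rw [mt_mul, mt_mul, ← mulVec_mulVec, ← mulVec_mulVec]
  nth_rewrite 2 [← e]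
  rw [← mulVec_sub]
  exact (h.norm_mt _ _).trans ((hk.norm _).trans
    (mul_le_mul_of_nonneg_left (h.norm_mt _ _) (by positivity)))

theorem Rep.tr_inv (h : Rep r S) {n : ℕ} {g : GQ} (hg : Tr r n g) : Tr r n g⁻¹ :=
  tr_iff.2 fun v => by
    have e : mt r g⁻¹ *ᵥ mt r g *ᵥ v = v := by
      rw [mulVec_mulVec, ← mt_mul, inv_mul_cancel, mt_one, one_mulVec]
    nth_rewrite 2 [← e]
    rw [← mulVec_sub]
    exact (h.norm_mt _ _).trans (by rw [norm_sub_rev]; exact hg.norm v)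

/-- the congruence subgroup of level `pp ^ n` -/
def Rep.Kn (h : Rep r S) (n : ℕ) : Subgroup GQ where
  carrier := {g | Tr r n g}
  mul_mem' := h.tr_mul
  one_mem' := tr_of_eq (mt_one r)
  inv_mem' := h.tr_inv

theorem Rep.mem_Kn (h : Rep r S) {n : ℕ} {g : GQ} : g ∈ h.Kn n ↔ Tr r n g := Iff.rfl

theorem Rep.Kn_normal (h : Rep r S) (n : ℕ) : (h.Kn n).Normal := ⟨fun k hk g => h.tr_conj hk g⟩

theorem Rep.Kn_open (h : Rep r S) (n : ℕ) : IsOpen (h.Kn n : Set GQ) := by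
  have e : (h.Kn n : Set GQ) = ⋂ i, ⋂ j,
      (fun g => (mt r g - 1) i j) ⁻¹' Metric.closedBall 0 ((1 / pp : ℝ) ^ n) := by
    ext g
    simp only [SetLike.mem_coe, h.mem_Kn, Tr, Set.mem_iInter, Set.mem_preimage, mem_closedBall_zero_iff]
  rw [e]
  exact isOpen_iInter_of_finite fun i => isOpen_iInter_of_finite fun j =>
    (IsUltrametricDist.isOpen_closedBall _ (pow_pos ip_pos n).ne').preimage
      ((h.cont i j).sub continuous_const)

theorem Rep.Kn_uns (h : Rep r S) (n : ℕ) : UnS S (h.Kn n) := fun l P ho hl g hg =>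
  tr_of_eq (h.mt_inert ho hl hg)

/-- the determinant is the cyclotomic character -/
theorem cyc_ep (h : Rep r S) : Cyc r := by
  intro g n a z hz ha
  have o1 : IsOpen {φ : GQ | ‖ep r φ - ep r g‖ < (1 / pp : ℝ) ^ n} :=
    isOpen_lt (h.ep_cont.sub continuous_const).norm continuous_const
  have o2 : IsOpen {φ : GQ | φ z = g z} := by
    have := (P022E.GW.Kc.stab_open z).preimage (f := fun φ : GQ => g⁻¹ * φ)
      (continuous_const.mul continuous_id)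
    refine (Set.ext fun φ => ?_ : _ = {φ : GQ | φ z = g z}) ▸ this
    rw [Iff.comm]
    show φ z = g z ↔ (g⁻¹ * φ) z = z
    rw [AlgEquiv.mul_apply]
    constructor
    · intro e
      rw [e, ← AlgEquiv.mul_apply, inv_mul_cancel]; rfl
    · intro e
      conv_rhs => rw [← e, ← AlgEquiv.mul_apply, mul_inv_cancel]
      rfl
  obtain ⟨l, φ, hl, hS, hF, h1, h2⟩ := P022K.Cheb.exists_fr (o1.inter o2) (g := g)
    ⟨by simpa using pow_pos ip_pos n, rfl⟩ S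
  have e := (h.frob l hl hS φ hF).1
  haveI : NeZero (pp ^ n) := ⟨pow_ne_zero _ pp_ne⟩
  have nd : ¬ l ∣ pp ^ n := fun k =>
    h.ne_two hS ((Nat.prime_dvd_prime_iff_eq hl pp_prime).1 (hl.dvd_of_dvd_pow k))
  have c1 := P022.H853.cyc_spec (m := pp ^ n) φ hz
  rw [P022.H853.cyc_frob hl nd hF, ZMod.val_natCast, ← pow_eq_pow_mod l hz] at c1
  have h3 : ‖(((l : ℤ) - a : ℤ) : ℚ_[pp])‖ ≤ (pp : ℝ) ^ (-(n : ℤ)) := by
    have e1 : (((l : ℤ) - a : ℤ) : ℚ_[pp]) = (ep r φ - ep r g) + (ep r g - a) := by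
      rw [e]; push_cast; ring
    rw [e1, ← ip_pow]
    exact norm_add_le' (le_of_lt h1) ha
  have h4 : a ≡ l [MOD pp ^ n] := by
    rw [Nat.modEq_iff_dvd]
    exact_mod_cast (Padic.norm_int_le_pow_iff_dvd _ n).1 h3
  have h5 : φ z = g z := h2
  rw [← h5, c1, pow_eq_pow_mod l hz, pow_eq_pow_mod a hz, h4]

end Vale.Agent.P014U.X4S
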